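import Vale.Agent.P116.KF.H80.EndSpec
import Vale.Agent.P116.Slow.E

/-!
# END', row ENDP-5: some limit map is good at all ends
-/

open Set Filter Topology Metric Bornology MeasureTheory

namespace Vale.Agent.P116.EndP

open H906 PBC Slow KF G

/-- points of one component of `K` are in the same nodes, so they are good at the same time -/
lemma goodAt_of_mem_comp {K c : Set ℂ} (hc : c ∈ comps K) {x y : ℂ} (hx : x ∈ c) (hy : y ∈ c)
    {𝔊 : Filter Str} (h : GoodAt fk K 𝔊 x) : GoodAt fk K 𝔊 y := by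
  have hnd : ∀ n, nd K n y = nd K n x := fun n => nd_eq (comp_subset_nd hc hx n hy)
  obtain ⟨a, r, hr, h1, h2⟩ := h
  refine ⟨a, r, hr, fun ε hε => ?_, h2⟩
  obtain ⟨n, hn⟩ := h1 ε hε
  refine ⟨n, ?_⟩
  rw [hnd n]
  exact hn

theorem endp3_of (h1 : Endp1) : Endp3 := by
  intro K hK hf Par B Ω _ _ P g 𝔊 h hpt
  have := h.prob
  have hC := h1 hK hf h
  set C := {c ∈ comps K | ∃ x ∈ c, ¬ PtA K P g x} with hCdef
  have hae : ∀ᵐ ω ∂P, ∀ c ∈ C, ∀ x ∈ c, GoodAt fk K (𝔊 ω : Filter Str) x := by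
    rw [ae_ball_iff hC]
    intro c hc
    obtain ⟨x₀, hx₀⟩ := comps_nonempty hc.1
    filter_upwards [h.good x₀ (comps_subset hc.1 hx₀)] with ω hω x hx
    exact goodAt_of_mem_comp hc.1 hx₀ hx hω
  obtain ⟨ω, hω⟩ := hae.exists
  have hall : ∀ x ∈ K, GoodAt fk K (𝔊 ω : Filter Str) x := by
    intro x hx
    by_cases hp : PtA K P g x
    · exact hpt x hx hp ω
    · exact hω (connectedComponentIn K x) ⟨⟨x, hx, rfl⟩, x, mem_connectedComponentIn hx, hp⟩ x
        (mem_connectedComponentIn hx)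
  exact ⟨⟨ω, hall⟩, g ω, h.nu ω, fun w hw => assembly hK hf (h.fine ω) (h.conv ω) hall hw⟩

end Vale.Agent.P116.EndP
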